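import Mathlib

/-!
# Definitions for the generator problem (P085)
-/

namespace Vale.Agent.P085

open scoped InnerProductSpace

universe u

variable {H : Type u} [NormedAddCommGroup H] [InnerProductSpace ℂ H] [CompleteSpace H]

/-- `M` is generated as a von Neumann algebra by one of its elements: some `x ∈ M` lies in no
von Neumann algebra that fails to contain `M`. -/
def SinglyGenerated (M : VonNeumannAlgebra H) : Prop :=
  ∃ x ∈ M, ∀ N : VonNeumannAlgebra H, x ∈ N → M ≤ N

/-- The centre of `M` consists of the scalars. -/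
def IsFactor (M : VonNeumannAlgebra H) : Prop :=
  ∀ z ∈ M, (∀ a ∈ M, z * a = a * z) → ∃ c : ℂ, z = c • 1

/-- The functional `a ↦ ∑ ⟪ξ i, a (ξ i)⟫`; for square-summable `ξ` of total mass one these are
exactly the normal states. -/
noncomputable def vecState (ξ : ℕ → H) (a : H →L[ℂ] H) : ℂ := ∑' i, ⟪ξ i, a (ξ i)⟫_ℂ

/-- `ξ` gives a faithful normal tracial state on `M`. -/
structure IsNormalTrace (M : VonNeumannAlgebra H) (ξ : ℕ → H) : Prop where
  summable : Summable fun i => ‖ξ i‖ ^ 2
  one : ∑' i, ‖ξ i‖ ^ 2 = 1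
  comm : ∀ a ∈ M, ∀ b ∈ M, vecState ξ (a * b) = vecState ξ (b * a)
  faithful : ∀ a ∈ M, vecState ξ (star a * a) = 0 → a = 0

/-- A type II₁ factor: an infinite-dimensional factor with a faithful normal tracial state. -/
def IsIIOneFactor (M : VonNeumannAlgebra H) : Prop :=
  IsFactor M ∧ (¬ FiniteDimensional ℂ (Submodule.span ℂ (M : Set (H →L[ℂ] H)))) ∧
    ∃ ξ : ℕ → H, IsNormalTrace M ξ

/-- Q1 for type II₁ factors with separable predual. -/
def GeneratorProblemIIOne : Prop :=
  ∀ (H : Type u) [NormedAddCommGroup H] [InnerProductSpace ℂ H] [CompleteSpace H]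
    [TopologicalSpace.SeparableSpace H] (M : VonNeumannAlgebra H),
    IsIIOneFactor M → SinglyGenerated M

end Vale.Agent.P085
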