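import Vale.Agent.P085.Setting

/-!
# Trace-norm limits stay in von Neumann subalgebras, without a bound on the operator norm
-/

namespace Vale.Agent.P085

open scoped InnerProductSpace ENNReal Topology
open Filter

universe u

variable {H : Type u} [NormedAddCommGroup H] [InnerProductSpace ℂ H] [CompleteSpace H]
variable {ξ : ℕ → H} {M : VonNeumannAlgebra H}

namespace Setup

variable (T : Setup M ξ)
include T

/-- pointwise convergence on the commutant orbit of the trace vectors -/
lemma tendsto_apply_of_n2 {b : ℕ → H →L[ℂ] H} {z : H →L[ℂ] H} (hb : ∀ k, b k ∈ M) (hz : z ∈ M)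
    (h : Tendsto (fun k => n2 ξ (b k - z)) atTop (𝓝 0)) {v : H}
    (hv : v ∈ Submodule.span ℂ (Set.range fun p : M.commutant × ℕ => (p.1 : H →L[ℂ] H) (ξ p.2))) :
    Tendsto (fun k => b k v) atTop (𝓝 (z v)) := by
  induction hv using Submodule.span_induction with
  | mem v hv =>
    obtain ⟨⟨a, i⟩, rfl⟩ := hv
    have hcomm : ∀ c ∈ M, c ((a : H →L[ℂ] H) (ξ i)) = (a : H →L[ℂ] H) (c (ξ i)) := fun c hc =>
      congrArg (fun f : H →L[ℂ] H => f (ξ i)) (VonNeumannAlgebra.mem_commutant_iff.1 a.2 _ hc)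
    simp only [hcomm _ (hb _), hcomm z hz]
    refine ((a : H →L[ℂ] H).continuous.tendsto _).comp ?_
    rw [tendsto_iff_norm_sub_tendsto_zero]
    refine squeeze_zero (fun k => norm_nonneg _) (fun k => ?_) h
    rw [← norm_emb T.trace.summable]
    exact le_trans (le_of_eq rfl)
      (lp.norm_apply_le_norm (by norm_num) (emb T.trace.summable (b k - z)) i)
  | zero => simp
  | add v w _ _ hv hw => simpa [map_add] using hv.add hw
  | smul c v _ hv => simpa [map_smul] using hv.const_smul c

/-- a trace-norm limit of elements of a von Neumann algebra `N` that lie in `M` is in `N` -/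
theorem mem_of_n2_tendsto (N : VonNeumannAlgebra H) {b : ℕ → H →L[ℂ] H} {z : H →L[ℂ] H}
    (hbN : ∀ k, b k ∈ N) (hb : ∀ k, b k ∈ M) (hz : z ∈ M)
    (h : Tendsto (fun k => n2 ξ (b k - z)) atTop (𝓝 0)) : z ∈ N := by
  have hs : Tendsto (fun k => n2 ξ (star (b k) - star z)) atTop (𝓝 0) := by
    refine h.congr fun k => ?_
    rw [← star_sub, T.n2_star (sub_mem (hb k) hz)]
  set S := Submodule.span ℂ (Set.range fun p : M.commutant × ℕ => (p.1 : H →L[ℂ] H) (ξ p.2))
  have hd : Dense (S : Set H) := by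
    rw [dense_iff_closure_eq, ← Submodule.topologicalClosure_coe, T.dense_commutant_orbit]
    rfl
  rw [← SetLike.mem_coe, ← N.centralizer_centralizer]
  intro y hy
  refine DFunLike.coe_injective (Continuous.ext_on hd (y * z).continuous (z * y).continuous ?_)
  intro v hv
  refine hd.eq_of_inner_right ℂ fun w hw => ?_
  have h1 : Tendsto (fun k => ⟪w, y (b k v)⟫_ℂ) atTop (𝓝 ⟪w, y (z v)⟫_ℂ) :=
    (((continuous_const.inner continuous_id).comp y.continuous).tendsto _).comp
      (T.tendsto_apply_of_n2 hb hz h hv)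
  have h2 : Tendsto (fun k => ⟪star (b k) w, y v⟫_ℂ) atTop (𝓝 ⟪star z w, y v⟫_ℂ) :=
    ((continuous_id.inner continuous_const).tendsto _).comp
      (T.tendsto_apply_of_n2 (fun k => star_mem (hb k)) (star_mem hz) hs hw)
  have h3 : ∀ k, ⟪w, y (b k v)⟫_ℂ = ⟪star (b k) w, y v⟫_ℂ := fun k => by
    rw [ContinuousLinearMap.star_eq_adjoint, ContinuousLinearMap.adjoint_inner_left]
    exact congrArg (fun f : H →L[ℂ] H => ⟪w, f v⟫_ℂ) (hy _ (hbN k)).symm
  have h4 := tendsto_nhds_unique (h1.congr h3) h2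
  rw [ContinuousLinearMap.star_eq_adjoint, ContinuousLinearMap.adjoint_inner_left] at h4
  exact h4

end Setup

end Vale.Agent.P085
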