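import Vale.Agent.P085.Interfaces

/-!
# An off-diagonal corner of trace one half generates the factor
-/

namespace Vale.Agent.P085

open scoped InnerProductSpace Topology
open Filter

universe u

variable {H : Type u} [NormedAddCommGroup H] [InnerProductSpace ℂ H] [CompleteSpace H]
variable {ξ : ℕ → H} {M : VonNeumannAlgebra H}

/-- a von Neumann algebra containing all of `p M (1 - p)` contains `M` -/
theorem le_of_corner (hE : EquivOut M ξ) {p : H →L[ℂ] H} (hp : IsProj M p)
    (hhalf : trP ξ p = trP ξ (1 - p)) (N : VonNeumannAlgebra H)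
    (hz : ∀ a ∈ M, p * a * (1 - p) ∈ N) : M ≤ N := by
  set q := 1 - p with hq
  have hqM : IsProj M q := ⟨sub_mem (one_mem M) hp.1, hp.2.one_sub⟩
  have hpp : p * p = p := hp.2.isIdempotentElem
  have hqq : q * q = q := hqM.2.isIdempotentElem
  obtain ⟨v, hv, hvp, hvq⟩ := hE p q hp hqM hhalf
  have hp' : star p = p := hp.2.isSelfAdjoint
  have hq' : star q = q := hqM.2.isSelfAdjoint
  have hstar : ∀ a ∈ M, q * a * p ∈ N := fun a ha => by
    have h := star_mem (hz (star a) (star_mem ha))
    rwa [star_mul, star_mul, star_star, hp', hq', ← mul_assoc] at h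
  intro a ha
  have h11 : p * a * p ∈ N := by
    have e : (star v * v) * (star v * v) = star v * (q * q) * v := by
      rw [hqq, ← hvq]; simp only [mul_assoc]
    have h : p * a * p = (p * (a * star v) * q) * (q * v * p) := by
      calc p * a * p = p * a * ((star v * v) * (star v * v)) * p := by
            rw [hvp, hpp, mul_assoc (p * a), hpp]
        _ = (p * (a * star v) * q) * (q * v * p) := by rw [e]; simp only [mul_assoc]
    rw [h]; exact mul_mem (hz _ (mul_mem ha (star_mem hv))) (hstar _ hv)
  have h22 : q * a * q ∈ N := by
    have e : (v * star v) * (v * star v) = v * (p * p) * star v := by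
      rw [hpp, ← hvp]; simp only [mul_assoc]
    have h : q * a * q = (q * (a * v) * p) * (p * star v * q) := by
      calc q * a * q = q * a * ((v * star v) * (v * star v)) * q := by
            rw [hvq, hqq, mul_assoc (q * a), hqq]
        _ = (q * (a * v) * p) * (p * star v * q) := by rw [e]; simp only [mul_assoc]
    rw [h]; exact mul_mem (hstar _ (mul_mem ha hv)) (hz _ (star_mem hv))
  have hsum : a = p * a * p + p * a * q + (q * a * p + q * a * q) := by
    rw [hq]; noncomm_ring
  rw [hsum]
  exact add_mem (add_mem h11 (hz a ha)) (add_mem (hstar a ha) h22)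

end Vale.Agent.P085
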