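import Vale.Agent.P085.Interfaces

/-!
# Interfaces between the modules of the proof for P085, second layer

Each `...Out` is to be proved by one module; none is assumed by the final theorem.
-/

namespace Vale.Agent.P085

open scoped InnerProductSpace

universe u

variable {H : Type u} [NormedAddCommGroup H] [InnerProductSpace ℂ H] [CompleteSpace H]

variable (M : VonNeumannAlgebra H) (ξ : ℕ → H)

/-- (B6) equal partitions adapted to a given partition: all parts but at most `m` of them lie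
inside a cell. -/
def AdaptedOut : Prop :=
  ∀ e, IsProj M e → 0 < trP ξ e →
    ∀ (m : ℕ) (E : Fin m → (H →L[ℂ] H)), IsPartition M e E → ∀ N : ℕ, 0 < N →
    ∃ (F : Fin N → (H →L[ℂ] H)) (S : Finset (Fin N)), IsPartition M e F ∧
      (∀ j, trP ξ (F j) = trP ξ e / N) ∧ S.card ≤ m ∧
      ∀ j, j ∉ S → ∃ k, F j * E k = F j

/-- (C1) finitely many self-adjoint contractions of a corner have, in trace norm, nearly scalar
compressions to the cells of one partition. -/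
def PaveOut : Prop :=
  ∀ e, IsProj M e → ∀ (m : ℕ) (X : Fin m → (H →L[ℂ] H)),
    (∀ t, X t ∈ M ∧ IsSelfAdjoint (X t) ∧ ‖X t‖ ≤ 1 ∧ e * X t = X t) → ∀ θ : ℝ, 0 < θ →
      ∃ (N : ℕ) (E : Fin N → (H →L[ℂ] H)), IsPartition M e E ∧
        ∀ t, ∃ c : Fin N → ℝ, (∀ k, |c k| ≤ 1) ∧
          n2 ξ (∑ k, E k * X t * E k - ∑ k, (c k : ℂ) • E k) ≤ θ

/-- (C2) equal partitions of a cell under which finitely many positive contractions spread out. -/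
def MixOut : Prop :=
  ∀ e, IsProj M e → 0 < trP ξ e → ∀ (m : ℕ) (X : Fin m → (H →L[ℂ] H)),
    (∀ t, X t ∈ M ∧ 0 ≤ X t ∧ ‖X t‖ ≤ 1 ∧ e * X t = X t) →
    ∀ r : ℕ, 0 < r → ∀ θ : ℝ, 0 < θ →
      ∃ E : Fin r → (H →L[ℂ] H), IsPartition M e E ∧ (∀ i, trP ξ (E i) = trP ξ e / r) ∧
        ∑ t, ∑ i, n2 ξ (E i * X t * E i) ^ 2 ≤
          ∑ t, (3 * (vecState ξ (X t)).re ^ 2 / trP ξ e + 3 * n2 ξ (X t) ^ 2 / r) + θ

/-- the cells of `p` and of `1 - p` at one level, all of the same trace -/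
structure Frame {K : ℕ} (p : H →L[ℂ] H) (P Q : Fin K → (H →L[ℂ] H)) : Prop where
  pos : 0 < K
  partP : IsPartition M p P
  partQ : IsPartition M (1 - p) Q
  trP_eq : ∀ a, trP ξ (P a) = 1 / (2 * K)
  trQ_eq : ∀ a, trP ξ (Q a) = 1 / (2 * K)

/-- (E) one step: refine the cells and perturb `y` so that `z` is nearly decoded -/
def StepOut : Prop :=
  ∀ p, IsProj M p → trP ξ p = 1 / 2 → ∀ (K : ℕ) (P Q : Fin K → (H →L[ℂ] H)),
    Frame M ξ p P Q → ∀ y ∈ M, IsSelfAdjoint y →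
    ∀ z ∈ M, ‖z‖ ≤ 1 → p * z = z → z * (1 - p) = z →
    ∀ δ : ℝ, 0 < δ → ∀ ε : ℝ, 0 < ε →
      ∃ (r : ℕ) (P' Q' : Fin K → Fin r → (H →L[ℂ] H)), 0 < r ∧
        (∀ a, IsPartition M (P a) (P' a)) ∧ (∀ a, IsPartition M (Q a) (Q' a)) ∧
        (∀ a i, trP ξ (P' a i) = 1 / (2 * K * r)) ∧ (∀ a i, trP ξ (Q' a i) = 1 / (2 * K * r)) ∧
        ∃ y' ∈ M, IsSelfAdjoint y' ∧ ‖y'‖ ≤ ‖y‖ + δ ∧ n2 ξ (y' - y) ≤ δ ∧
          ∃ w ∈ StarAlgebra.adjoin ℂ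
              (Set.range (Function.uncurry P') ∪ Set.range (Function.uncurry Q') ∪ {y'}),
            n2 ξ (w - z) ≤ ε

/-- (F1) elements of the star algebra depend continuously on one self-adjoint generator -/
def ContOut : Prop :=
  ∀ G : Set (H →L[ℂ] H), G ⊆ (M : Set (H →L[ℂ] H)) → ∀ R : ℝ, ∀ y ∈ M, IsSelfAdjoint y → ‖y‖ ≤ R →
    ∀ w ∈ StarAlgebra.adjoin ℂ (G ∪ {y}), ∀ ε : ℝ, 0 < ε →
      ∃ δ : ℝ, 0 < δ ∧ ∀ y' ∈ M, IsSelfAdjoint y' → ‖y'‖ ≤ R → n2 ξ (y' - y) ≤ δ →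
        ∃ w' ∈ StarAlgebra.adjoin ℂ (G ∪ {y'}), n2 ξ (w' - w) ≤ ε

/-- (F2) a dense sequence in the unit ball of `p M (1 - p)`, every point visited again and again -/
def SepOut : Prop :=
  ∀ p, IsProj M p → ∃ z : ℕ → (H →L[ℂ] H),
    (∀ k, z k ∈ M ∧ ‖z k‖ ≤ 1 ∧ p * z k = z k ∧ z k * (1 - p) = z k) ∧
    ∀ a ∈ M, ‖a‖ ≤ 1 → p * a = a → a * (1 - p) = a → ∀ ε : ℝ, 0 < ε → ∀ N : ℕ,
      ∃ k, N ≤ k ∧ n2 ξ (z k - a) ≤ ε

/-- (F3) nested partitions are all recovered from one self-adjoint element -/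
def NestOut : Prop :=
  ∀ (n : ℕ → ℕ) (E : ∀ l, Fin (n l) → (H →L[ℂ] H)),
    (∀ l, IsPartition M 1 (E l)) → (∀ l j, ∃ i, E (l + 1) j * E l i = E (l + 1) j) →
    ∃ x ∈ M, IsSelfAdjoint x ∧ ∀ N : VonNeumannAlgebra H, x ∈ N → ∀ l i, E l i ∈ N

/-- (F4) generation from `p` and trace-norm approximations of the ball of `p M (1 - p)` -/
def GenOut : Prop :=
  ∀ p, IsProj M p → trP ξ p = 1 / 2 → ∀ x ∈ M, IsSelfAdjoint x → ∀ y ∈ M, IsSelfAdjoint y →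
    (∀ N : VonNeumannAlgebra H, x ∈ N → p ∈ N) →
    (∀ a ∈ M, ‖a‖ ≤ 1 → p * a = a → a * (1 - p) = a → ∀ ε : ℝ, 0 < ε →
      ∃ w, (∀ N : VonNeumannAlgebra H, x ∈ N → y ∈ N → w ∈ N) ∧ n2 ξ (w - a) ≤ ε) →
    SinglyGenerated M

end Vale.Agent.P085
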