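import Mathlib

/-!
# One self-adjoint element generating countably many commuting projections

For commuting projections `e m` the element `x = ∑ 3^(-(m+1)) e m` separates each of them: if `y`
commutes with `x` and `z = (1 - e 0) y (e 0)`, then `z x = x z` forces `‖z‖ / 3 ≤ ‖z‖ / 6`.
-/

namespace Vale.Agent.P085

open scoped InnerProductSpace

universe u

variable {H : Type u} [NormedAddCommGroup H] [InnerProductSpace ℂ H] [CompleteSpace H]

/-- the ternary series of a sequence of operators, from the index `k` on -/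
noncomputable def ternary (e : ℕ → H →L[ℂ] H) (k : ℕ) : H →L[ℂ] H :=
  ∑' m, ((1 / 3 : ℂ) ^ (m + 1)) • e (k + m)

section
variable {e : ℕ → H →L[ℂ] H}

lemma norm_proj_le {p : H →L[ℂ] H} (hp : IsStarProjection p) : ‖p‖ ≤ 1 := IsStarProjection.norm_le p hp

lemma summable_ternary (he : ∀ m, IsStarProjection (e m)) (k : ℕ) :
    Summable fun m => ((1 / 3 : ℂ) ^ (m + 1)) • e (k + m) := by
  refine Summable.of_norm_bounded (g := fun m => (1 / 3 : ℝ) ^ (m + 1)) ?_ fun m => ?_
  · exact (summable_geometric_of_lt_one (by norm_num) (by norm_num)).comp_injective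
      Nat.succ_injective
  · rw [norm_smul, norm_pow]
    simpa using mul_le_mul_of_nonneg_left (norm_proj_le (he (k + m)))
      (by positivity : (0 : ℝ) ≤ ‖(1 / 3 : ℂ)‖ ^ (m + 1))

lemma norm_ternary_le (he : ∀ m, IsStarProjection (e m)) (k : ℕ) : ‖ternary e k‖ ≤ 1 / 2 := by
  refine tsum_of_norm_bounded (g := fun m => (1 / 3 : ℝ) * (1 / 3) ^ m) ?_ fun m => ?_
  · have h := (hasSum_geometric_of_lt_one (r := (1 / 3 : ℝ)) (by norm_num) (by norm_num)).mul_left
      (1 / 3 : ℝ)
    norm_num at h ⊢
    exact h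
  · rw [norm_smul, norm_pow]
    calc ‖(1 / 3 : ℂ)‖ ^ (m + 1) * ‖e (k + m)‖ ≤ ‖(1 / 3 : ℂ)‖ ^ (m + 1) * 1 := by
          gcongr; exact norm_proj_le (he _)
      _ = (1 / 3 : ℝ) * (1 / 3) ^ m := by rw [norm_div, norm_one]; norm_num [pow_succ, mul_comm]

lemma ternary_succ (he : ∀ m, IsStarProjection (e m)) (k : ℕ) :
    ternary e k = (1 / 3 : ℂ) • (e k + ternary e (k + 1)) := by
  rw [ternary, (summable_ternary he k).tsum_eq_zero_add, smul_add, ternary,
    ← (summable_ternary he (k + 1)).tsum_const_smul]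
  congr 1
  · simp
  · refine tsum_congr fun m => ?_
    rw [smul_smul, ← pow_succ', show k + (m + 1) = k + 1 + m by ring]

lemma isSelfAdjoint_ternary (he : ∀ m, IsStarProjection (e m)) (k : ℕ) :
    IsSelfAdjoint (ternary e k) := by
  rw [IsSelfAdjoint, ternary, tsum_star]
  refine tsum_congr fun m => ?_
  rw [star_smul, (he (k + m)).isSelfAdjoint.star_eq]
  simp

lemma commute_ternary (_he : ∀ m, IsStarProjection (e m)) (k : ℕ) {y : H →L[ℂ] H}
    (hy : ∀ m, Commute y (e m)) : Commute y (ternary e k) :=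
  Commute.tsum_right _ fun m => (hy (k + m)).smul_right _

lemma re_inner_ternary_nonneg (he : ∀ m, IsStarProjection (e m)) (k : ℕ) (v : H) :
    0 ≤ (⟪v, ternary e k v⟫_ℂ).re := by
  have h1 := (ContinuousLinearMap.apply ℂ H v).map_tsum (summable_ternary he k)
  have hs := (ContinuousLinearMap.apply ℂ H v).summable (summable_ternary he k)
  simp only [ContinuousLinearMap.apply_apply] at h1 hs
  rw [ternary, h1]
  have h2 := (innerSL ℂ v).map_tsum hs
  simp only [innerSL_apply_apply] at h2
  rw [h2, Complex.re_tsum (by simpa only [innerSL_apply_apply] using (innerSL ℂ v).summable hs)]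
  refine tsum_nonneg fun m => ?_
  have h3 : (⟪v, e (k + m) v⟫_ℂ) = ((‖e (k + m) v‖ ^ 2 : ℝ) : ℂ) := by
    have hp : IsSelfAdjoint (e (k + m)) := (he _).isSelfAdjoint
    have hi : e (k + m) (e (k + m) v) = e (k + m) v :=
      congrArg (fun f : H →L[ℂ] H => f v) (he (k + m)).isIdempotentElem
    calc ⟪v, e (k + m) v⟫_ℂ = ⟪v, e (k + m) (e (k + m) v)⟫_ℂ := by rw [hi]
      _ = ⟪e (k + m) v, e (k + m) v⟫_ℂ := by
          rw [← ContinuousLinearMap.adjoint_inner_left, ← ContinuousLinearMap.star_eq_adjoint,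
            hp.star_eq]
      _ = _ := by rw [inner_self_eq_norm_sq_to_K]; simp
  rw [smul_apply, inner_smul_right, h3]
  rw [show ((1 / 3 : ℂ) ^ (m + 1)) = (((1 / 3 : ℝ) ^ (m + 1) : ℝ) : ℂ) by push_cast; rfl,
    ← Complex.ofReal_mul, Complex.ofReal_re]
  positivity

lemma corner_eq_zero (he : ∀ m, IsStarProjection (e m)) (hcomm : ∀ i j, Commute (e i) (e j))
    (k : ℕ) {y : H →L[ℂ] H} (hy : Commute y (ternary e k)) : (1 - e k) * y * e k = 0 := by
  set E := e k with hE
  set w := ternary e (k + 1) with hw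
  set z := (1 - E) * y * E with hz
  have hEw : E * w = w * E := (commute_ternary he (k + 1) fun m => hcomm k m)
  have hEE : E * E = E := (he k).isIdempotentElem
  have hzE : z * E = z := by rw [hz, mul_assoc, hEE]
  have hy' : y * (E + w) = (E + w) * y := by
    have h := hy.eq
    rw [ternary_succ he k, mul_smul_comm, smul_mul_assoc] at h
    exact smul_right_injective _ (by norm_num : (1 / 3 : ℂ) ≠ 0) h
  set A := 1 + E * w with hA
  have hzA : z * A = w * z := by
    have h1 : z * A = (1 - E) * (y * (E + w)) * E := by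
      rw [hA, hz]
      have : E * (1 + E * w) = (E + w) * E := by
        rw [mul_add, mul_one, ← mul_assoc, hEE, add_mul, hEE, hEw]
      calc (1 - E) * y * E * (1 + E * w) = (1 - E) * y * (E * (1 + E * w)) := by
            simp only [mul_assoc]
        _ = (1 - E) * y * ((E + w) * E) := by rw [this]
        _ = _ := by simp only [mul_assoc]
    rw [h1, hy', hz]
    have h2 : (1 - E) * (E + w) = w * (1 - E) := by
      rw [sub_mul, one_mul, mul_add, hEE, mul_sub, mul_one, hEw]; abel
    calc (1 - E) * ((E + w) * y) * E = (1 - E) * (E + w) * y * E := by simp only [mul_assoc]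
      _ = w * ((1 - E) * y * E) := by rw [h2]; simp only [mul_assoc]
  have hsym : star A = A := by
    rw [hA, star_add, star_one, star_mul, (isSelfAdjoint_ternary he (k + 1)).star_eq,
      (he k).isSelfAdjoint.star_eq, ← hEw]
  have hlow : ∀ v : H, ‖v‖ ≤ ‖A v‖ := by
    intro v
    have h1 : ⟪v, A v⟫_ℂ = ⟪v, v⟫_ℂ + ⟪E v, w (E v)⟫_ℂ := by
      have hEEw : E * w = E * w * E := by rw [mul_assoc, ← hEw, ← mul_assoc, hEE]
      conv_lhs => rw [hA, hEEw]
      rw [add_apply, inner_add_right]
      simp only [mul_apply_eq_comp, one_apply_eq_self]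
      rw [← ContinuousLinearMap.adjoint_inner_left E, ← ContinuousLinearMap.star_eq_adjoint,
        (he k).isSelfAdjoint.star_eq]
    have h2 : ‖v‖ ^ 2 ≤ (⟪v, A v⟫_ℂ).re := by
      have h3 : (⟪v, v⟫_ℂ).re = ‖v‖ ^ 2 := inner_self_eq_norm_sq (𝕜 := ℂ) v
      rw [h1, Complex.add_re, h3]
      linarith [re_inner_ternary_nonneg he (k + 1) (E v)]
    have h4 : (⟪v, A v⟫_ℂ).re ≤ ‖v‖ * ‖A v‖ := (Complex.re_le_norm _).trans (norm_inner_le_norm _ _)
    nlinarith [norm_nonneg v, norm_nonneg (A v)]
  have hnorm : ‖star z‖ ≤ ‖z * A‖ := by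
    rw [← norm_star (z * A), star_mul z A, hsym]
    refine ContinuousLinearMap.opNorm_le_bound _ (norm_nonneg _) fun v => ?_
    exact (hlow _).trans ((A * star z).le_opNorm v)
  have hwb : ‖w * z‖ ≤ 1 / 2 * ‖z‖ :=
    (norm_mul_le _ _).trans (by gcongr; exact norm_ternary_le he (k + 1))
  rw [norm_star, hzA] at hnorm
  exact norm_le_zero_iff.1 (by linarith)

lemma commute_proj (he : ∀ m, IsStarProjection (e m)) (hcomm : ∀ i j, Commute (e i) (e j))
    (k : ℕ) {y : H →L[ℂ] H} (hy : Commute y (ternary e k)) : Commute y (e k) := by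
  have h1 := corner_eq_zero he hcomm k hy
  have hy' : Commute (star y) (ternary e k) := by
    have h := congrArg star hy.eq
    rw [star_mul, star_mul, (isSelfAdjoint_ternary he k).star_eq] at h
    exact h.symm
  have h2 := congrArg star (corner_eq_zero he hcomm k hy')
  simp only [star_mul, star_sub, star_one, star_star, star_zero,
    (he k).isSelfAdjoint.star_eq] at h2
  rw [sub_mul, one_mul, sub_mul, sub_eq_zero] at h1
  rw [mul_sub, mul_one, mul_sub, sub_eq_zero, ← mul_assoc] at h2
  exact h1.trans h2.symm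

/-- countably many commuting projections of `M` lie in every von Neumann algebra containing one
self-adjoint element of `M` -/
theorem exists_frame_element (M : VonNeumannAlgebra H) (he : ∀ m, IsStarProjection (e m))
    (heM : ∀ m, e m ∈ M) (hcomm : ∀ i j, Commute (e i) (e j)) :
    ∃ x ∈ M, IsSelfAdjoint x ∧ ‖x‖ ≤ 1 / 2 ∧
      ∀ N : VonNeumannAlgebra H, x ∈ N → ∀ m, e m ∈ N := by
  refine ⟨ternary e 0, ?_, isSelfAdjoint_ternary he 0, norm_ternary_le he 0, fun N hN => ?_⟩
  · rw [← SetLike.mem_coe, ← M.centralizer_centralizer]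
    intro y hy
    exact commute_ternary he 0 fun m => (hy _ (heM m)).symm
  · have key : ∀ m, e m ∈ N ∧ ternary e (m + 1) ∈ N := by
      have step : ∀ k, ternary e k ∈ N → e k ∈ N ∧ ternary e (k + 1) ∈ N := fun k hk => by
        have h1 : e k ∈ N := by
          rw [← SetLike.mem_coe, ← N.centralizer_centralizer]
          intro y hy
          exact commute_proj he hcomm k (hy _ hk).symm
        have h3 : (3 : ℂ) • ternary e k ∈ N := N.toStarSubalgebra.smul_mem hk 3
        rw [ternary_succ he k, smul_smul, show (3 : ℂ) * (1 / 3) = 1 by norm_num, one_smul] at h3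
        exact ⟨h1, by simpa using sub_mem h3 h1⟩
      intro m
      induction m with
      | zero => exact step 0 hN
      | succ m ih => exact step (m + 1) ih.2
    exact fun m => (key m).1

end

end Vale.Agent.P085
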