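import Vale.Agent.P085.Setting

/-!
# Interfaces between the modules of the proof for P085

Each `...Out` is to be proved by one module; none is assumed by the final theorem.
-/

namespace Vale.Agent.P085

open scoped InnerProductSpace

universe u

variable {H : Type u} [NormedAddCommGroup H] [InnerProductSpace ℂ H] [CompleteSpace H]

/-- a projection of `M` -/
def IsProj (M : VonNeumannAlgebra H) (p : H →L[ℂ] H) : Prop := p ∈ M ∧ IsStarProjection p

/-- the trace of a projection -/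
noncomputable def trP (ξ : ℕ → H) (p : H →L[ℂ] H) : ℝ := n2 ξ p ^ 2

/-- a finite family of mutually orthogonal projections of `M` with sum `p` -/
structure IsPartition {ι : Type*} [Fintype ι] (M : VonNeumannAlgebra H) (p : H →L[ℂ] H)
    (E : ι → (H →L[ℂ] H)) : Prop where
  proj : ∀ i, IsProj M (E i)
  orth : ∀ i j, i ≠ j → E i * E j = 0
  total : ∑ i, E i = p

variable (M : VonNeumannAlgebra H) (ξ : ℕ → H)

/-- (B1) projections of every smaller trace -/
def SubProjOut : Prop :=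
  ∀ p, IsProj M p → ∀ t : ℝ, 0 ≤ t → t ≤ trP ξ p →
    ∃ q, IsProj M q ∧ q * p = q ∧ trP ξ q = t

/-- (B2) projections of equal trace are equivalent -/
def EquivOut : Prop :=
  ∀ p q, IsProj M p → IsProj M q → trP ξ p = trP ξ q →
    ∃ v ∈ M, star v * v = p ∧ v * star v = q

/-- (B3) partitions into parts of equal trace -/
def EqualPartsOut : Prop :=
  ∀ p, IsProj M p → ∀ n : ℕ, 0 < n →
    ∃ E : Fin n → (H →L[ℂ] H), IsPartition M p E ∧ ∀ i, trP ξ (E i) = trP ξ p / n

/-- (B4) finite-spectrum approximation of self-adjoint elements of a corner -/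
def SaApproxOut : Prop :=
  ∀ e, IsProj M e → ∀ h ∈ M, IsSelfAdjoint h → e * h = h → ∀ θ : ℝ, 0 < θ →
    ∃ (m : ℕ) (c : Fin m → ℝ) (E : Fin m → (H →L[ℂ] H)), IsPartition M e E ∧
      (∀ i, |c i| ≤ ‖h‖) ∧ (∀ i, E i * h = h * E i) ∧ ‖h - ∑ i, (c i : ℂ) • E i‖ ≤ θ

/-- (B5) approximation of unitaries of a corner by roots of unity of large odd order -/
def UnitaryApproxOut : Prop :=
  ∀ e, IsProj M e → ∀ u ∈ M, e * u = u → u * e = u → star u * u = e → u * star u = e →
    ∀ θ : ℝ, 0 < θ → ∀ N : ℕ, ∃ (h : ℕ) (E : Fin (2 * h + 1) → (H →L[ℂ] H)), N ≤ h ∧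
      IsPartition M e E ∧
      n2 ξ (u - ∑ m : Fin (2 * h + 1),
        Complex.exp (2 * Real.pi * Complex.I * (m.1 : ℂ) / (2 * h + 1 : ℕ)) • E m) ≤ θ

/-- (C) flat refinements: inside given equal cells of `p` and of `q = 1 - p` there are refinements
into `r` equal parts for which a given `z ∈ p M q` has small fourth moments. -/
def FlatOut : Prop :=
  ∀ p, IsProj M p → trP ξ p = 1 / 2 → ∀ (K : ℕ) (P Q : Fin K → (H →L[ℂ] H)), 0 < K →
    IsPartition M p P → IsPartition M (1 - p) Q →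
    (∀ a, trP ξ (P a) = 1 / (2 * K)) → (∀ a, trP ξ (Q a) = 1 / (2 * K)) →
    ∀ z ∈ M, ‖z‖ ≤ 1 → p * z = z → z * (1 - p) = z → ∀ r : ℕ, 0 < r →
      ∃ P' Q' : Fin K → Fin r → (H →L[ℂ] H),
        (∀ a, IsPartition M (P a) (P' a)) ∧ (∀ a, IsPartition M (Q a) (Q' a)) ∧
        (∀ a i, trP ξ (P' a i) = 1 / (2 * K * r)) ∧ (∀ a i, trP ξ (Q' a i) = 1 / (2 * K * r)) ∧
        ∑ a, ∑ i, ∑ b, ∑ j,
          n2 ξ (star (P' a i * z * Q' b j) * (P' a i * z * Q' b j)) ^ 2 ≤ 4 / (r : ℝ)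

end Vale.Agent.P085
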