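import Vale.Agent.P085.Defs

/-!
# The trace, the trace norm, and convergence on bounded sets
-/

namespace Vale.Agent.P085

open scoped InnerProductSpace ENNReal Topology
open Filter

universe u

variable {H : Type u} [NormedAddCommGroup H] [InnerProductSpace ℂ H] [CompleteSpace H]

/-- the standing data: a factor of infinite dimension with a normal trace -/
structure Setup (M : VonNeumannAlgebra H) (ξ : ℕ → H) : Prop where
  trace : IsNormalTrace M ξ
  factor : IsFactor M
  infinite : ¬ FiniteDimensional ℂ (Submodule.span ℂ (M : Set (H →L[ℂ] H)))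

variable {ξ : ℕ → H}

lemma memℓp_apply (hξ : Summable fun i => ‖ξ i‖ ^ 2) (a : H →L[ℂ] H) :
    Memℓp (fun i => a (ξ i)) 2 := by
  refine memℓp_gen ?_
  simp only [ENNReal.toReal_ofNat, Real.rpow_two]
  refine Summable.of_nonneg_of_le (fun i => by positivity) (fun i => ?_) (hξ.mul_left (‖a‖ ^ 2))
  rw [← mul_pow]
  gcongr
  exact a.le_opNorm _

/-- the vector of `a` in `ℓ²(H)` -/
noncomputable def emb (hξ : Summable fun i => ‖ξ i‖ ^ 2) :
    (H →L[ℂ] H) →ₗ[ℂ] lp (fun _ : ℕ => H) 2 where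
  toFun a := ⟨fun i => a (ξ i), memℓp_apply hξ a⟩
  map_add' a b := lp.ext (funext fun i => rfl)
  map_smul' c a := lp.ext (funext fun i => rfl)

/-- the trace norm of an operator -/
noncomputable def n2 (ξ : ℕ → H) (a : H →L[ℂ] H) : ℝ := Real.sqrt (∑' i, ‖a (ξ i)‖ ^ 2)

lemma n2_nonneg (a : H →L[ℂ] H) : 0 ≤ n2 ξ a := Real.sqrt_nonneg _

lemma norm_emb (hξ : Summable fun i => ‖ξ i‖ ^ 2) (a : H →L[ℂ] H) : ‖emb hξ a‖ = n2 ξ a := by
  rw [lp.norm_eq_tsum_rpow (by norm_num) (emb hξ a)]
  simp only [ENNReal.toReal_ofNat, Real.rpow_two]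
  rw [n2, Real.sqrt_eq_rpow]
  rfl

lemma inner_emb (hξ : Summable fun i => ‖ξ i‖ ^ 2) (a b : H →L[ℂ] H) :
    ⟪emb hξ a, emb hξ b⟫_ℂ = vecState ξ (star a * b) := by
  rw [lp.inner_eq_tsum, vecState]
  refine tsum_congr fun i => ?_
  change ⟪a (ξ i), b (ξ i)⟫_ℂ = ⟪ξ i, star a (b (ξ i))⟫_ℂ
  rw [ContinuousLinearMap.star_eq_adjoint, ContinuousLinearMap.adjoint_inner_right]

lemma n2_add_le (hξ : Summable fun i => ‖ξ i‖ ^ 2) (a b : H →L[ℂ] H) :
    n2 ξ (a + b) ≤ n2 ξ a + n2 ξ b := by
  rw [← norm_emb hξ, ← norm_emb hξ, ← norm_emb hξ, map_add]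
  exact norm_add_le _ _

lemma n2_smul (hξ : Summable fun i => ‖ξ i‖ ^ 2) (c : ℂ) (a : H →L[ℂ] H) :
    n2 ξ (c • a) = ‖c‖ * n2 ξ a := by
  rw [← norm_emb hξ, ← norm_emb hξ, map_smul, norm_smul]

lemma vecState_star_mul_self (hξ : Summable fun i => ‖ξ i‖ ^ 2) (a : H →L[ℂ] H) :
    vecState ξ (star a * a) = ((n2 ξ a ^ 2 : ℝ) : ℂ) := by
  rw [← inner_emb hξ, inner_self_eq_norm_sq_to_K, norm_emb hξ]
  simp

lemma n2_mul_le (hξ : Summable fun i => ‖ξ i‖ ^ 2) (a b : H →L[ℂ] H) :
    n2 ξ (a * b) ≤ ‖a‖ * n2 ξ b := by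
  have hs : ∀ c : H →L[ℂ] H, Summable fun i => ‖c (ξ i)‖ ^ 2 := fun c => by
    have h := (memℓp_apply hξ c).summable (by norm_num)
    simpa [Real.rpow_two] using h
  rw [n2, n2, ← Real.sqrt_sq (norm_nonneg a), ← Real.sqrt_mul (sq_nonneg _), ← tsum_mul_left]
  refine Real.sqrt_le_sqrt (Summable.tsum_le_tsum (fun i => ?_) (hs _) ((hs b).mul_left _))
  rw [← mul_pow]
  gcongr
  exact a.le_opNorm _

namespace Setup

variable {M : VonNeumannAlgebra H} (T : Setup M ξ)
include T

lemma n2_star {a : H →L[ℂ] H} (ha : a ∈ M) : n2 ξ (star a) = n2 ξ a := by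
  have h := T.trace.comm (star a) (star_mem ha) a ha
  rw [vecState_star_mul_self T.trace.summable] at h
  have h' := vecState_star_mul_self T.trace.summable (star a)
  rw [star_star, ← h] at h'
  have h2 : n2 ξ a ^ 2 = n2 ξ (star a) ^ 2 := by exact_mod_cast h'
  exact ((sq_eq_sq₀ (n2_nonneg _) (n2_nonneg _)).1 h2).symm

lemma n2_mul_le' {a b : H →L[ℂ] H} (ha : a ∈ M) (hb : b ∈ M) :
    n2 ξ (a * b) ≤ n2 ξ a * ‖b‖ := by
  rw [← T.n2_star (mul_mem ha hb), star_mul, mul_comm, ← T.n2_star ha, ← norm_star b]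
  exact n2_mul_le T.trace.summable _ _

lemma eq_zero_of_n2 {a : H →L[ℂ] H} (ha : a ∈ M) (h : n2 ξ a = 0) : a = 0 :=
  T.trace.faithful a ha (by rw [vecState_star_mul_self T.trace.summable, h]; simp)

/-- closed span of the vectors `a' (ξ i)` with `a'` in the commutant -/
lemma dense_commutant_orbit :
    (Submodule.span ℂ (Set.range fun p : M.commutant × ℕ => (p.1 : H →L[ℂ] H) (ξ p.2))).topologicalClosure
      = ⊤ := by
  set K := (Submodule.span ℂ
    (Set.range fun p : M.commutant × ℕ => (p.1 : H →L[ℂ] H) (ξ p.2))).topologicalClosure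
  have : CompleteSpace K := Submodule.topologicalClosure.completeSpace _
  have he : K.starProjection ∈ M := by
    rw [VonNeumannAlgebra.IsStarProjection.mem_iff isStarProjection_starProjection M]
    intro y hy
    rw [Submodule.range_starProjection, Module.End.mem_invtSubmodule]
    intro k hk
    have hmaps : Set.MapsTo y
        (Submodule.span ℂ (Set.range fun p : M.commutant × ℕ => (p.1 : H →L[ℂ] H) (ξ p.2)) : Set H)
        (Submodule.span ℂ (Set.range fun p : M.commutant × ℕ => (p.1 : H →L[ℂ] H) (ξ p.2))) := by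
      intro v hv
      induction hv using Submodule.span_induction with
      | mem v hv =>
        obtain ⟨⟨b, i⟩, rfl⟩ := hv
        exact Submodule.subset_span ⟨(⟨y * b, mul_mem hy b.2⟩, i), rfl⟩
      | zero => rw [map_zero]; exact zero_mem _
      | add v w _ _ a b => rw [map_add]; exact add_mem a b
      | smul c v _ a => rw [map_smul]; exact Submodule.smul_mem _ c a
    exact hmaps.closure y.continuous hk
  have hz : n2 ξ (1 - K.starProjection) = 0 := by
    have hi : ∀ i, (1 - K.starProjection) (ξ i) = 0 := fun i => by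
      have : ξ i ∈ K := Submodule.le_topologicalClosure _
        (Submodule.subset_span ⟨(⟨1, one_mem _⟩, i), rfl⟩)
      simp [Submodule.starProjection_eq_self_iff.2 this]
    simp [n2, hi]
  have h1 := T.eq_zero_of_n2 (sub_mem (one_mem M) he) hz
  refine eq_top_iff.2 fun v _ => ?_
  have h2 : K.starProjection v = v := by
    rw [← sub_eq_zero.1 h1]; rfl
  rw [← h2]
  exact K.starProjection_apply_mem v

/-- on a norm ball, trace-norm Cauchy sequences converge pointwise to an element of `M` -/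
theorem exists_limit {a : ℕ → H →L[ℂ] H} (ha : ∀ n, a n ∈ M) {R : ℝ} (hR : ∀ n, ‖a n‖ ≤ R)
    (hc : ∀ ε, 0 < ε → ∃ N, ∀ m ≥ N, ∀ n ≥ N, n2 ξ (a m - a n) < ε) :
    ∃ b ∈ M, ‖b‖ ≤ R ∧ (∀ v, Tendsto (fun n => a n v) atTop (𝓝 (b v))) ∧
      Tendsto (fun n => n2 ξ (a n - b)) atTop (𝓝 0) := by
  have hR0 : 0 ≤ R := (norm_nonneg _).trans (hR 0)
  set S := Submodule.span ℂ (Set.range fun p : M.commutant × ℕ => (p.1 : H →L[ℂ] H) (ξ p.2))
  have hgen : ∀ v ∈ S, CauchySeq fun n => a n v := by
    intro v hv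
    induction hv using Submodule.span_induction with
    | mem v hv =>
      obtain ⟨⟨b, i⟩, rfl⟩ := hv
      have hcomm : ∀ n, a n ((b : H →L[ℂ] H) (ξ i)) = (b : H →L[ℂ] H) (a n (ξ i)) := fun n =>
        congrArg (fun f : H →L[ℂ] H => f (ξ i)) (VonNeumannAlgebra.mem_commutant_iff.1 b.2 _ (ha n))
      simp only [hcomm]
      refine (b : H →L[ℂ] H).uniformContinuous.comp_cauchySeq ?_
      rw [Metric.cauchySeq_iff]
      intro ε hε
      obtain ⟨N, hN⟩ := hc ε hε
      refine ⟨N, fun m hm n hn => lt_of_le_of_lt ?_ (hN m hm n hn)⟩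
      rw [dist_eq_norm, ← norm_emb T.trace.summable]
      exact le_trans (le_of_eq rfl) (lp.norm_apply_le_norm (by norm_num) (emb T.trace.summable (a m - a n)) i)
    | zero => simpa using cauchySeq_const (0 : H)
    | add v w _ _ hv hw => simpa [map_add, Pi.add_def] using hv.add hw
    | smul c v _ hv =>
      have h := (uniformContinuous_const_smul c).comp_cauchySeq hv
      simpa [Function.comp_def] using h
  have hdense : ∀ v : H, CauchySeq fun n => a n v := by
    intro v
    rw [Metric.cauchySeq_iff]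
    intro ε hε
    have hv : v ∈ closure (S : Set H) := by
      rw [← Submodule.topologicalClosure_coe, T.dense_commutant_orbit]; trivial
    obtain ⟨w, hw, hvw⟩ := Metric.mem_closure_iff.1 hv (ε / (3 * (R + 1))) (by positivity)
    obtain ⟨N, hN⟩ := Metric.cauchySeq_iff.1 (hgen w hw) (ε / 3) (by positivity)
    refine ⟨N, fun m hm n hn => ?_⟩
    have hb : ∀ k, dist (a k v) (a k w) < ε / 3 := fun k => by
      calc dist (a k v) (a k w) ≤ R * dist v w := by
            rw [dist_eq_norm, dist_eq_norm, ← map_sub]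
            exact ((a k).le_opNorm _).trans (by gcongr; exact hR k)
        _ ≤ (R + 1) * dist v w := by gcongr; linarith
        _ < (R + 1) * (ε / (3 * (R + 1))) := by gcongr
        _ = ε / 3 := by field_simp
    linarith [dist_triangle4 (a m v) (a m w) (a n w) (a n v), hb m, hb n, hN m hm n hn,
      dist_comm (a n w) (a n v)]
  choose g hg using fun v => cauchySeq_tendsto_of_complete (hdense v)
  let L : H →ₗ[ℂ] H :=
    { toFun := g
      map_add' := fun v w => tendsto_nhds_unique (hg (v + w)) (by simpa using (hg v).add (hg w))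
      map_smul' := fun c v => tendsto_nhds_unique (hg (c • v)) (by simpa using (hg v).const_smul c) }
  have hLb : ∀ v, ‖L v‖ ≤ R * ‖v‖ := fun v =>
    le_of_tendsto (hg v).norm (Eventually.of_forall fun n =>
      ((a n).le_opNorm v).trans (by gcongr; exact hR n))
  set b : H →L[ℂ] H := L.mkContinuous R hLb
  have hb : ∀ v, Tendsto (fun n => a n v) atTop (𝓝 (b v)) := hg
  refine ⟨b, ?_, L.mkContinuous_norm_le hR0 hLb, hb, ?_⟩
  · rw [← SetLike.mem_coe, ← M.centralizer_centralizer]
    intro y hy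
    refine ContinuousLinearMap.ext fun v => ?_
    refine tendsto_nhds_unique ((y.continuous.tendsto _).comp (hb v)) ?_
    refine (hb (y v)).congr fun n => ?_
    exact congrArg (fun f : H →L[ℂ] H => f v) (hy _ (ha n))
  · have hcs : CauchySeq fun n => emb T.trace.summable (a n) := by
      rw [Metric.cauchySeq_iff]
      intro ε hε
      obtain ⟨N, hN⟩ := hc ε hε
      exact ⟨N, fun m hm n hn => by
        rw [dist_eq_norm, ← map_sub, norm_emb]; exact hN m hm n hn⟩
    obtain ⟨l, hl⟩ := cauchySeq_tendsto_of_complete hcs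
    have hlb : l = emb T.trace.summable b := lp.ext (funext fun i => tendsto_nhds_unique
      (((lp.evalCLM ℂ (fun _ : ℕ => H) (p := 2) i).continuous.tendsto _).comp hl) (hb (ξ i)))
    rw [hlb, tendsto_iff_norm_sub_tendsto_zero] at hl
    refine hl.congr fun n => ?_
    rw [← map_sub, norm_emb]

end Setup

end Vale.Agent.P085
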